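import Vale.Agent.P142.Flux.Chunk

/-!
Packed monomial codes of the slots of a certificate.
-/

namespace Vale.Agent.P142.Flux.Certs.S088

open Vale.Agent.P142.Flux

/-- The codes. -/
def codes : ℕ := 0xc00080000082008000008010800000800084000080008020008000800100800080000080000c00008000082000800008010080000800004400800000440008000042108000004210080000420084000042008020004200800100420080000042000c0000420008200042000801004200080000420004400042000421004200042000402080000040200800004020042000401084000040108020004010800100401080000040100c0000401008200040100801004010080000401004400040100421004010042000401004020040100401004000880000400084200040008401004000840000400080400040008021004000802000400080020040008001004000800000400010000040000c200040000c010040000c000040000840004000082100400008200040000802004000080100400008000040000460004000044100400004400040000422004000042100400004200040000403004000040200400004010040000400000800040000061004000006008000000600080000060004200006000401000600040000042004000004108000000410080000041004200004100401000410040000040084000004008020000400800100040080000004000c00000400082000040008010004000800000400044000040004210004000420000400040200040004010004000400000400006000040000410004000040000230040000022080000002200800000220042000022004010002200400000220004000021084000002108020000210800100021080000002100c0000021008200002100801000210080000021004400002100421000210042000021004020002100401000210040000021000600002100041000210004000021000220002100021000200880000020084200002008401000200840000020080400002008021000200802000020080020002008001000200800000020010000002000c200002000c010002000c00000200084000020008210002000820000200080200020008010002000800000200046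00002000441000200044000020004220002000421000200042000020004030002000402000200040100020004000002000080000200006100020000600002000042000200004100020000400002000023000200002200020000210002000020000040040000004000200000308000000030080000003004200000300401000030040000003000400000300021000030002000002084000000208020000020800100002080000000200c000000200820000020080100002008000000200440000020042100002004200000200402000020040100002004000000200060000020004100002000400000200022000020002100002000200000200002000010880000001084200000108401000010840000001080400000108021000010802000001080020000108001000010800000001010000000100c200000100c010000100c00000010084000001008210000100820000010080200001008010000100800000010046000001004410000100440000010042200001004210000100420000010040300001004020000100401000010040000001000800000100061000010006000001000420000100041000010004000001000230000100022000010002100001000200000100003000010000200001000010000008c00000000882000000088010000008800000000844000000084210000008420000000840200000084010000008400000000806000000080410000008040000000802200000080210000008020000000800300000080020000008001000000800000000014000000001020000000100100000010000000000c400000000c210000000c200000000c020000000c010000000c00000000086000000008410000000840000000082200000008210000000820000000080300000008020000000801000000080000000004800000000461000000046000000004420000000441000000044000000004230000000422000000042100000004200000000404000000040300000004020000000401000000040000000000a00000000081000000008000000000620000000061000000006000000000430000000042000000004100000000400000000024000000002300000000220000000021000000002000000000040000000003000000000200000000010000000000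

end Vale.Agent.P142.Flux.Certs.S088
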