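import Vale.Agent.P142.Flux.Certs.S088.Gram0p0
import Vale.Agent.P142.Flux.Certs.S088.Gram1p0
import Vale.Agent.P142.Flux.Certs.S088.Gram2p0
import Vale.Agent.P142.Flux.Certs.S088.Density0
import Vale.Agent.P142.Flux.Certs.S088.Density1
import Vale.Agent.P142.Flux.Certs.S088.Density2
import Vale.Agent.P142.Flux.Certs.S088.Density3
import Vale.Agent.P142.Flux.Certs.S088.Density4
import Vale.Agent.P142.Flux.Certs.S088.Density5

/-!
A certificate assembled from its checked parts.
-/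

namespace Vale.Agent.P142.Flux.Certs.S088

open Vale.Agent.P142.Flux

def pieces0 : List Contrib.Piece := [piece0p0]

theorem pieces0Ok : ∀ p ∈ pieces0, Contrib.pieceOk blk0 codes 56 p.1 p.2.1 p.2.2.1 p.2.2.2.1 p.2.2.2.2 = true :=
  List.forall_mem_cons.2 ⟨piece0p0Ok, List.forall_mem_nil _⟩

theorem keysSame0 : Contrib.sameKeys blk0 0 (pieces0.map Prod.fst).flatten = true := by decide +kernel

def pieces1 : List Contrib.Piece := [piece1p0]

theorem pieces1Ok : ∀ p ∈ pieces1, Contrib.pieceOk blk1 codes 56 p.1 p.2.1 p.2.2.1 p.2.2.2.1 p.2.2.2.2 = true :=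
  List.forall_mem_cons.2 ⟨piece1p0Ok, List.forall_mem_nil _⟩

theorem keysSame1 : Contrib.sameKeys blk1 0 (pieces1.map Prod.fst).flatten = true := by decide +kernel

def pieces2 : List Contrib.Piece := [piece2p0]

theorem pieces2Ok : ∀ p ∈ pieces2, Contrib.pieceOk blk2 codes 56 p.1 p.2.1 p.2.2.1 p.2.2.2.1 p.2.2.2.2 = true :=
  List.forall_mem_cons.2 ⟨piece2p0Ok, List.forall_mem_nil _⟩

theorem keysSame2 : Contrib.sameKeys blk2 0 (pieces2.map Prod.fst).flatten = true := by decide +kernel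

def density : List Chunk.Piece := [dens0, dens1, dens2, dens3, dens4, dens5]

theorem densityOk : ∀ p ∈ density, Chunk.ok (25) (22) 25 3 codes 56 p.1 p.2.1 p.2.2.1 p.2.2.2.1 p.2.2.2.2.1 p.2.2.2.2.2.1 p.2.2.2.2.2.2 = true :=
  List.forall_mem_cons.2 ⟨dens0Ok, List.forall_mem_cons.2 ⟨dens1Ok, List.forall_mem_cons.2 ⟨dens2Ok, List.forall_mem_cons.2 ⟨dens3Ok, List.forall_mem_cons.2 ⟨dens4Ok, List.forall_mem_cons.2 ⟨dens5Ok, List.forall_mem_nil _⟩⟩⟩⟩⟩⟩

def posSum : ℕ := Nat.add (Nat.add (Chunk.pieceSum (fun p => p.2.2.2.1) density) 0) (Nat.add (Nat.add (Contrib.pieceSum (fun p => p.2.2.1) pieces0) (Contrib.pieceSum (fun p => p.2.2.1) pieces1)) (Contrib.pieceSum (fun p => p.2.2.1) pieces2))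

def negSum : ℕ := Nat.add (Nat.add (Chunk.pieceSum (fun p => p.2.2.2.2.1) density) (Nat.shiftLeft (Nat.mul 3 52070400) (Nat.mul 56 0))) (Nat.add (Nat.add (Contrib.pieceSum (fun p => p.2.1) pieces0) (Contrib.pieceSum (fun p => p.2.1) pieces1)) (Contrib.pieceSum (fun p => p.2.1) pieces2))

def posTot : ℕ := Nat.add (Nat.add (Chunk.pieceSum (fun p => p.2.2.2.2.2.1) density) 0) (Nat.add (Nat.add (Contrib.pieceSum (fun p => p.2.2.2.2) pieces0) (Contrib.pieceSum (fun p => p.2.2.2.2) pieces1)) (Contrib.pieceSum (fun p => p.2.2.2.2) pieces2))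

def negTot : ℕ := Nat.add (Nat.add (Chunk.pieceSum (fun p => p.2.2.2.2.2.2) density) (Nat.mul 3 52070400)) (Nat.add (Nat.add (Contrib.pieceSum (fun p => p.2.2.2.1) pieces0) (Contrib.pieceSum (fun p => p.2.2.2.1) pieces1)) (Contrib.pieceSum (fun p => p.2.2.2.1) pieces2))

theorem balanced : (Nat.beq posSum negSum && Nat.blt posTot (2 ^ 56) && Nat.blt negTot (2 ^ 56)) = true := by decide +kernel

/-- The certificate at weight `22 / 25` and exponent `25 / 25`. -/
theorem cert : ∃ (P Q : ℂ × ℂ × ℂ → ℝ) (c : ℝ), CertT (((22 : ℤ) : ℝ) / (25 : ℕ)) (((25 : ℤ) : ℝ) / (25 : ℕ)) c P Q := by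
  refine ⟨_, _, _, Chunk.certT_of_balance (K := 536870912) (M := 3) (C := 52070400) (codes := codes) (W := 56)
    (P := posSum) (Q := negSum) (tp := posTot) (tq := negTot)
    (by norm_num) (by norm_num) (by norm_num) (by norm_num) (Chunk.allP density) (Chunk.allQ density)
    (fun a ha => ?_) balanced⟩
  have r0 := Contrib.block_rep (W := 56) (codes := codes) a table0 keys0 pieces0 pieces0Ok
  have n0 := Contrib.gram_nonneg ha keysSame0 g0Ok
  have r1 := Contrib.block_rep (W := 56) (codes := codes) a table1 keys1 pieces1 pieces1Ok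
  have n1 := Contrib.gram_nonneg ha keysSame1 g1Ok
  have r2 := Contrib.block_rep (W := 56) (codes := codes) a table2 keys2 pieces2 pieces2Ok
  have n2 := Contrib.gram_nonneg ha keysSame2 g2Ok
  refine ⟨_, ?_, ((Chunk.pieces_rep (by norm_num) a density densityOk).add (Chunk.const_rep a (by decide +kernel))).add (((r0.add r1).add r2)).neg⟩
  linarith

end Vale.Agent.P142.Flux.Certs.S088
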